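import Vale.Agent.P371G.Key
import Vale.Agent.P371G.Flow
import Vale.Agent.P371G.Reduce
import Vale.Agent.P371G.Soliton
import Vale.Agent.P371M.Upper
import Vale.Agent.P371G.LowReduce
import Vale.Agent.P371G.LowDual

namespace Vale.Agent.Results.P371.SharpConstantFull

open Vale.Agent.P371M Vale.Agent.P371G

/-- For `1/2 < γ < 3/2` and every `m ≥ 1`, the one-dimensional Lieb-Thirring constant `L_γ(m)` for
`m × m` matrix potentials is attained and equals the one-bound-state constant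
`2 ((γ-1/2)/(γ+1/2))^(γ-1/2) Γ(γ+1)/(2√π Γ(γ+3/2))`. -/
theorem result (γ : ℝ) (hγ : γ ∈ Set.Ioo (1 / 2 : ℝ) (3 / 2)) (m : ℕ) (hm : 1 ≤ m) :
    IsGreatest (LTRatios γ m)
      (2 * ((γ - 1 / 2) / (γ + 1 / 2)) ^ (γ - 1 / 2) *
        (Real.Gamma (γ + 1) / (2 * Real.sqrt Real.pi * Real.Gamma (γ + 3 / 2)))) := by
  show IsGreatest (LTRatios γ m) (LOne γ)
  refine ⟨sol_extremal_gen hγ.1 hm, ?_⟩
  rintro r ⟨W, hW, hpos, n, u, du, lam, hE, rfl⟩
  rw [div_le_iff₀ hpos]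
  rcases lt_trichotomy γ 1 with h1 | h1 | h1
  · exact eig_bound_low ⟨hγ.1, h1⟩ (dualIneq ⟨hγ.1, h1⟩) hW hE
  · subst h1
    have hL : LOne 1 = L11 := by
      have g52 : Real.Gamma (5 / 2) = 3 / 4 * Real.sqrt Real.pi := by
        rw [show (5:ℝ) / 2 = (1 / 2 + 1) + 1 by norm_num, Real.Gamma_add_one (by norm_num),
          Real.Gamma_add_one (by norm_num), Real.Gamma_one_half_eq]
        ring
      rw [LOne, L11, show (1:ℝ) + 1 = 2 by norm_num, Real.Gamma_two,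
        show (1:ℝ) + 3 / 2 = 5 / 2 by norm_num, g52,
        show ((1:ℝ) - 1 / 2) / (1 + 1 / 2) = 3⁻¹ by norm_num,
        show (1:ℝ) - 1 / 2 = 1 / 2 by norm_num, ← Real.sqrt_eq_rpow, Real.sqrt_inv]
      have h3 : Real.sqrt 3 ≠ 0 := by positivity
      field_simp
      rw [Real.sq_sqrt Real.pi_pos.le]
    rw [hL]
    have h := eig_bound hW hE
    rw [show (1:ℝ) + 1 / 2 = 3 / 2 by norm_num]
    simpa only [Real.rpow_one] using h
  · exact eig_bound_gen ⟨h1, hγ.2⟩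
      (kineticInterval_of_api ⟨h1, hγ.2⟩ (psiAPI ⟨by linarith, by linarith [hγ.2]⟩)) hW hE

end Vale.Agent.Results.P371.SharpConstantFull
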